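import Mathlib

/-! # P097 / Disc : interfaces of the disc case (helper323)

One-sided tables: `h = ∑ a n * z ^ n`, `a 0 = 1`, `a 1 = 0` (formal power series in `z = e^{iψ}`).
`A = (h + D h)/2`, `B = (h - D h)/2`, `D = z d/dz`.  Lines `(N, p)`; the pencil of the boundary
point of parameter `z` is `N = z ξ`, `p = A(z) ξ + B(z)/ξ`, the reflection is `ξ ↦ ξ⁻¹`. -/

set_option linter.all false

open PowerSeries

namespace Vale.Agent.P097.Disc

section defs

variable {k : Type*} [Field k] {L : Type*} [Field L] [Algebra k L]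

/-- coefficients of `A = (h + D h)/2` -/
def Ac (a : ℕ → k) (n : ℕ) : k := (1 + n) * a n / 2

/-- coefficients of `B = (h - D h)/2` -/
def Bc (a : ℕ → k) (n : ℕ) : k := (1 - n) * a n / 2

/-- `p = A(z) x + B(z) / x` as a power series in `z` -/
noncomputable def pz (a : ℕ → k) (x : L) : PowerSeries L :=
  PowerSeries.mk fun n => algebraMap k L (Ac a n) * x + algebraMap k L (Bc a n) * x⁻¹

/-- value of the rational function `r` at the power series `P` -/
noncomputable def evR (r : RatFunc k) (P : PowerSeries L) : PowerSeries L :=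
  Polynomial.aeval P r.num * (Polynomial.aeval P r.denom)⁻¹

/-- coefficient of `z ^ n` in `Q(z x, A(z) x + B(z)/x)`, `Q = ∑ Q_i(p) N^i` -/
noncomputable def Wn (a : ℕ → k) (Q : ℕ → RatFunc k) (x : L) (n : ℕ) : L :=
  ∑ i ∈ Finset.range (n + 1), x ^ i * PowerSeries.coeff (n - i) (evR (Q i) (pz a x))

/-- the label of the invariant foliation: the formal series `Q = p + ∑_{i ≥ 1} Q_i(p) N^i` whose
restriction to every pencil is symmetric under `ξ ↦ ξ⁻¹` (`ξ = RatFunc.X` generic) -/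
def IsLabel (a : ℕ → k) (Q : ℕ → RatFunc k) : Prop :=
  Q 0 = RatFunc.X ∧ ∀ n, Wn a Q (RatFunc.X : RatFunc k) n = Wn a Q (RatFunc.X : RatFunc k)⁻¹ n

/-- the rational function is regular at the point -/
def RegAt (r : RatFunc k) (p : k) : Prop := r.denom.eval p ≠ 0

/-- `A(z)`, truncated composition -/
noncomputable def evA (a : ℕ → k) (r : ℕ) (z : PowerSeries k) : PowerSeries k :=
  ∑ m ∈ Finset.range (r + 1), PowerSeries.C (Ac a m) * z ^ m

noncomputable def evB (a : ℕ → k) (r : ℕ) (z : PowerSeries k) : PowerSeries k :=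
  ∑ m ∈ Finset.range (r + 1), PowerSeries.C (Bc a m) * z ^ m

/-- equality modulo `X ^ (r+1)` -/
def EqM (r : ℕ) (f g : PowerSeries k) : Prop := ∀ i ≤ r, PowerSeries.coeff i f = PowerSeries.coeff i g

/-- closed `n`-orbits near the circle, to order `r`, `s = exp (iπ p/n)`: bounces `z j`, outgoing
line `(z j * x j, A(z j) x j + B(z j)/x j)`, which is the incoming line
`(z (j+1) / x (j+1), A(z (j+1)) / x (j+1) + B(z (j+1)) x (j+1))` of the next bounce -/
def Orb (a : ℕ → k) (s : k) (n r : ℕ) : Prop :=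
  ∃ z x : ℕ → PowerSeries k, (∀ j ≤ n, PowerSeries.coeff 0 (z j) = 0 ∧ PowerSeries.coeff 0 (x j) = s) ∧
    PowerSeries.coeff 1 (z 0) = 1 ∧
    (∀ j < n, EqM r (z j * x j * x (j + 1)) (z (j + 1)) ∧
      EqM r ((evA a r (z j) * x j ^ 2 + evB a r (z j)) * x (j + 1))
        ((evA a r (z (j + 1)) + evB a r (z (j + 1)) * x (j + 1) ^ 2) * x j)) ∧
    EqM r (z n) (z 0) ∧ EqM r (x n) (x 0)

end defs

/-- existence and uniqueness of the label, growth at infinity -/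
def LAB : Prop :=
  ∀ (k : Type) [Field k] [CharZero k] (a : ℕ → k), a 0 = 1 → a 1 = 0 →
    ∃ Q : ℕ → RatFunc k, IsLabel a Q ∧ (∀ Q' : ℕ → RatFunc k, IsLabel a Q' → Q' = Q) ∧
      (∀ n, 1 ≤ n → Q n = 0 ∨ (Q n).intDegree ≤ 1 - (n : ℤ))

/-- closed orbits give regularity of the label -/
def REG : Prop :=
  ∀ (a : ℕ → ℂ) (Q : ℕ → RatFunc ℂ), a 0 = 1 → a 1 = 0 → IsLabel a Q → ∀ (s : ℂ) (n : ℕ), 1 ≤ n →
    s ^ (2 * n) = 1 → s ^ 2 ≠ 1 → (∀ r, Orb a s n r) → ∀ i, RegAt (Q i) ((s + s⁻¹) / 2)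

/-- [D2] the label is regular outside a finite set -/
def D2 : Prop :=
  ∀ (a : ℕ → ℂ) (Q : ℕ → RatFunc ℂ) (η : ℝ), a 0 = 1 → a 1 = 0 → IsLabel a Q → 0 < η → η ≤ 1 / 2 →
    (∀ p n : ℕ, 0 < p → 0 < n → (p : ℝ) / n < η → ∀ r,
      Orb a (Complex.exp (Complex.I * (Real.pi * p / n))) n r) →
    ∃ S : Finset ℂ, ∀ p ∉ S, ∀ i, RegAt (Q i) p

/-- [D3] one-sided tables whose label is regular outside a finite set are conics -/
def D3 : Prop :=
  ∀ (a : ℕ → ℂ) (Q : ℕ → RatFunc ℂ) (S : Finset ℂ), a 0 = 1 → a 1 = 0 → IsLabel a Q →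
    (∀ p ∉ S, ∀ i, RegAt (Q i) p) →
    ∃ b : ℂ, (PowerSeries.mk a) ^ 2 = 1 + PowerSeries.C b * PowerSeries.X ^ 2

/-- [D4] linear rigidity of the one-sided conic `h² = 1 + c z²`, positive modes
(`G = g h = ∑ G i * u ^ i`, `u = z / h`) -/
def D4 : Prop :=
  ∀ (η : ℝ) (c : ℂ) (G : ℕ → ℂ), 0 < η → η ≤ 1 / 2 → c ≠ 0 →
    (∀ m p : ℕ, 0 < p → (p : ℝ) / m < η →
      ∑ j ∈ (Finset.range m).filter (fun j => 2 * j < m),
        G (m - 2 * j) * ((-1) ^ j * ((m - j - 1).choose j : ℂ)) *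
          (c / (4 * (Real.cos (Real.pi * p / m) : ℂ) ^ 2)) ^ j = 0) →
    ∃ α β : ℂ, ∀ i, G (2 * i + 1) = α * c ^ i ∧ G (2 * i + 2) = β * c ^ i

end Vale.Agent.P097.Disc
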