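import Vale.Agent.P097.H407.Det
import Vale.Agent.P097.Disc.Defs

/-! # P097 / Disc : interfaces of the analytic part D1 (helper407)

`n + 1` bounces, `1 ≤ p`, `2 * p ≤ n + 1`, chains near the regular one
`θ + 2 * aa n p * j + w j`, `w 0 = w (n + 1) = 0`; all constants are powers of `n + 2`. -/

set_option linter.all false

namespace Vale.Agent.P097.Disc

open Vale.Agent.P097 Vale.Agent.P097.FD Vale.Agent.P097.H407 Vale.Agent.P097.Reg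
open Filter
open scoped Topology

/-- threshold `(n + 2) ^ (-A)` -/
noncomputable def sm (A n : ℕ) : ℝ := 1 / ((n : ℝ) + 2) ^ A

/-- half gap of the regular chain with `n + 1` bounces and `p` turns -/
noncomputable def aa (n p : ℕ) : ℝ := Real.pi * p / (n + 1)

noncomputable def mm (w : ℕ → ℂ) (j : ℕ) : ℂ := (w j + w (j + 1)) / 2

noncomputable def dd (w : ℕ → ℂ) (j : ℕ) : ℂ := (w (j + 1) - w j) / 2

/-- `∂₂` of the `j`-th piece `2 g_j(mid) sin(half gap)`; `g j` is the table seen from the `j`-th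
regular midpoint -/
noncomputable def ep (g : ℕ → ℂ → ℂ) (a : ℝ) (w : ℕ → ℂ) (j : ℕ) : ℂ :=
  deriv (g j) (mm w j) * Complex.sin (a + dd w j) + g j (mm w j) * Complex.cos (a + dd w j)

/-- `∂₁` of the `j`-th piece -/
noncomputable def em (g : ℕ → ℂ → ℂ) (a : ℝ) (w : ℕ → ℂ) (j : ℕ) : ℂ :=
  deriv (g j) (mm w j) * Complex.sin (a + dd w j) - g j (mm w j) * Complex.cos (a + dd w j)

/-- critical chains with pinned ends -/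
def IsCr (g : ℕ → ℂ → ℂ) (n p : ℕ) (w : ℕ → ℂ) : Prop :=
  w 0 = 0 ∧ w (n + 1) = 0 ∧ ∀ j < n, ep g (aa n p) w j + em g (aa n p) w (j + 1) = 0

/-- small: inside the ball of uniqueness -/
def Sml (n : ℕ) (w : ℕ → ℂ) : Prop := ∀ j ≤ n + 1, ‖w j‖ ≤ sm 12 n

/-- critical value -/
noncomputable def cv (g : ℕ → ℂ → ℂ) (n p : ℕ) (w : ℕ → ℂ) : ℂ :=
  ∑ j ∈ Finset.range (n + 1), 2 * g j (mm w j) * Complex.sin (aa n p + dd w j)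

/-- tables `1 + O(ε)` on the unit ball -/
def Tb (g : ℕ → ℂ → ℂ) (n : ℕ) (ε : ℝ) : Prop :=
  ∀ j ≤ n, DifferentiableOn ℂ (g j) (Metric.ball 0 1) ∧ ∀ w ∈ Metric.ball (0 : ℂ) 1, ‖g j w - 1‖ ≤ ε

/-- [D1a1] contraction with holomorphic parameter. `F(w) = Λ w + O(ρ + ε) w`, `Λ` = `sin(a)/2` times
the Dirichlet Laplacian, `‖Λ⁻¹‖ ≤ (n+2)^3`; Picard iterates are holomorphic in `x`. -/
def CRIT : Prop := ∃ A : ℕ, ∀ n p : ℕ, 1 ≤ p → 2 * p ≤ n + 1 →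
  ∀ (U : Set ℂ) (g : ℂ → ℕ → ℂ → ℂ), IsOpen U →
    (∀ j ≤ n, DifferentiableOn ℂ (fun q : ℂ × ℂ => g q.1 j q.2) (U ×ˢ Metric.ball 0 1)) →
    (∀ x ∈ U, ∀ j ≤ n, ∀ w ∈ Metric.ball (0 : ℂ) 1, ‖g x j w - 1‖ ≤ sm A n) →
    ∃ w : ℂ → ℕ → ℂ, (∀ x ∈ U, IsCr (g x) n p (w x) ∧ Sml n (w x)) ∧
      ∀ j ≤ n + 1, DifferentiableOn ℂ (fun x => w x j) U

/-- [D1a2] uniqueness (`κ = 0`), Lipschitz dependence, first variation of the critical value -/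
def LIPC : Prop := ∃ A : ℕ, ∀ n p : ℕ, 1 ≤ p → 2 * p ≤ n + 1 →
  ∀ (g g' : ℕ → ℂ → ℂ) (w w' : ℕ → ℂ) (κ : ℝ), Tb g n (sm A n) → Tb g' n (sm A n) →
    (∀ j ≤ n, ∀ z ∈ Metric.ball (0 : ℂ) 1, ‖g' j z - g j z‖ ≤ κ) →
    IsCr g n p w → IsCr g' n p w' → Sml n w → Sml n w' →
    (∀ j ≤ n + 1, ‖w' j - w j‖ ≤ ((n : ℝ) + 2) ^ A * κ) ∧
    ‖cv g' n p w' - cv g n p w‖ ≤ ((n : ℝ) + 2) ^ A * κ ∧
    ‖cv g' n p w' - cv g n p w - ∑ j ∈ Finset.range (n + 1),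
      2 * (g' j (mm w j) - g j (mm w j)) * Complex.sin (aa n p + dd w j)‖ ≤ ((n : ℝ) + 2) ^ A * κ ^ 2

/-- [D1a3] envelope: derivative of the critical value with respect to a parameter -/
def ENV : Prop := ∀ (n p : ℕ) (U : Set ℂ) (g : ℂ → ℕ → ℂ → ℂ) (w : ℂ → ℕ → ℂ), IsOpen U →
    (∀ j ≤ n, DifferentiableOn ℂ (fun q : ℂ × ℂ => g q.1 j q.2) (U ×ˢ Metric.ball 0 1)) →
    (∀ x ∈ U, IsCr (g x) n p (w x) ∧ ∀ j ≤ n + 1, ‖w x j‖ < 1) →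
    (∀ j ≤ n + 1, DifferentiableOn ℂ (fun x => w x j) U) →
    ∀ x ∈ U, HasDerivAt (fun y => cv (g y) n p (w y)) (∑ j ∈ Finset.range (n + 1),
      2 * deriv (fun y => g y j (mm (w x) j)) x * Complex.sin (aa n p + dd (w x) j)) x

/-- the table `G` seen from the regular midpoints of the chain which starts at `θ` -/
noncomputable def loc (G : ℂ → ℂ) (n p : ℕ) (θ : ℂ) (j : ℕ) (w : ℂ) : ℂ :=
  G (θ + aa n p * (2 * j + 1) + w)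

/-- [D1b1] real maximal chains are close to the regular one -/
def REAL : Prop := ∃ A : ℕ, ∀ (n p : ℕ) (h : ℝ → ℝ) (ε : ℝ), 1 ≤ p → 2 * p ≤ n + 1 →
  Continuous h → (∀ x, |h x - 1| ≤ ε) → ∀ (θ : ℝ) (Z : ℕ → ℝ), PV.MaxP h n p θ Z →
    ∀ j ≤ n + 1, |Z j - (θ + 2 * aa n p * j)| ≤ ((n : ℝ) + 2) ^ A * Real.sqrt ε

/-- [D1b2] sandwich -/
def SAND : Prop := ∃ A : ℕ, ∀ (n p : ℕ) (u q : ℝ → ℝ) (ε κ : ℝ), 1 ≤ p → 2 * p ≤ n + 1 →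
  Continuous u → Continuous q → (∀ x, |u x - 1| ≤ ε) → (∀ x, |u x + q x - 1| ≤ ε) →
  (∀ x, |q x| ≤ κ) → (∀ x y, |q x - q y| ≤ κ * |x - y|) → ∀ θ : ℝ,
    |PV.mxP (fun x => u x + q x) n p θ - PV.mxP u n p θ - ∑ j ∈ Finset.range (n + 1),
      2 * q (θ + aa n p * (2 * j + 1)) * Real.sin (aa n p)| ≤ ((n : ℝ) + 2) ^ A * κ * Real.sqrt ε

/-- [D1b3] relation for the Fourier modes -/
def REL : Prop := ∃ A : ℕ, ∀ (n p : ℕ) (e u q : ℝ → ℝ) (ε κ : ℝ), 1 ≤ p → 2 * p ≤ n + 1 →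
  Continuous e → Continuous u → Continuous q → (∀ x, q (x + 2 * Real.pi) = q x) →
  (∀ x, u (x + 2 * Real.pi) = u x) → (∀ x, e (x + 2 * Real.pi) = e x) →
  (∀ x, |u x - 1| ≤ ε) → (∀ x, |u x + q x - 1| ≤ ε) →
  (∀ x, |q x| ≤ κ) → (∀ x y, |q x - q y| ≤ κ * |x - y|) →
  PV.CstP e n p → PV.CstP (fun x => u x + q x) n p → ∀ k : ℤ, k ≠ 0 →
    ‖R4.cf (fun x => PV.mxP u n p x - PV.mxP e n p x) k + 2 * Real.sin (aa n p) *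
      (∑ j ∈ Finset.range (n + 1), Complex.exp (Complex.I * k * aa n p * (2 * j + 1))) * R4.cf q k‖ ≤
      ((n : ℝ) + 2) ^ A * κ * Real.sqrt ε

/-- [D1c1] the real maximum is the critical value -/
def REALC : Prop := ∃ A : ℕ, ∀ (n p : ℕ) (G : ℂ → ℂ) (e : ℝ → ℝ), 1 ≤ p → 2 * p ≤ n + 1 →
  DifferentiableOn ℂ G {z : ℂ | |z.im| < 2} → (∀ z : ℂ, |z.im| < 2 → ‖G z - 1‖ ≤ sm A n) →
  (∀ x : ℝ, G x = e x) → (∀ x, e (x + 2 * Real.pi) = e x) → ∀ (x : ℝ) (w : ℕ → ℂ),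
    IsCr (loc G n p x) n p w → Sml n w → (PV.mxP e n p x : ℂ) = cv (loc G n p x) n p w

/-- [D1c2] wide strips: difference of the maxima of two tables -/
def HOLM : Prop := ∃ A : ℕ, ∀ (n p : ℕ) (T κ : ℝ) (G K : ℂ → ℂ) (e f : ℝ → ℝ), 1 ≤ p →
  2 * p ≤ n + 1 → 3 ≤ T →
  DifferentiableOn ℂ G {z : ℂ | |z.im| < T} → DifferentiableOn ℂ K {z : ℂ | |z.im| < T} →
  (∀ z : ℂ, |z.im| < T → ‖G z - 1‖ ≤ sm A n) → (∀ z : ℂ, |z.im| < T → ‖K z - 1‖ ≤ sm A n) →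
  (∀ z : ℂ, |z.im| < T → ‖G z - K z‖ ≤ κ) → (∀ x : ℝ, G x = e x) → (∀ x : ℝ, K x = f x) →
  (∀ x, e (x + 2 * Real.pi) = e x) → (∀ x, f (x + 2 * Real.pi) = f x) → ∀ k : ℤ,
    ‖R4.cf (fun x => PV.mxP e n p x - PV.mxP f n p x) k‖ ≤
      ((n : ℝ) + 2) ^ A * κ * Real.exp (-((T - 1) * |(k : ℝ)|))

/-- graded sequences of resonant tables `h`, compared with `e` (the disc `e = 1`, or ellipses) -/
structure GS (η β M : ℝ) (N0 : ℕ) (h e : ℕ → ℝ → ℝ) (δ μ : ℕ → ℝ) : Prop where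
  sh : ∀ m, StripTab β M (h m)
  se : ∀ m, StripTab β M (e m)
  rh : ∀ m, Rsn (h m) η
  re : ∀ m, Rsn (e m) η
  dp : ∀ m, 0 < δ m
  dl : Tendsto δ atTop (𝓝 0)
  mp : ∀ m, 0 < μ m
  ml : ∀ m, μ m ≤ 1
  e0 : ∀ m, R4.cf (e m) 0 = 1
  e1 : ∀ m, R4.cf (e m) 1 = 0
  eg : ∃ C0 : ℝ, 0 < C0 ∧ ∀ m, ∀ k : ℕ, 2 ≤ k → ‖R4.cf (e m) k‖ ≤ (C0 * δ m) ^ k
  b0 : ∀ m, R4.cf (h m) 0 = 1
  b1 : ∀ m, R4.cf (h m) 1 = 0
  bk : ∀ m, ∀ k : ℕ, 2 ≤ k → k ≤ N0 → ‖R4.cf (h m) k - R4.cf (e m) k‖ ≤ μ m * δ m ^ k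

/-- graded bound of order `r` (up to arbitrarily small losses `δ ^ (-ε)`) -/
def Gr (h e : ℕ → ℝ → ℝ) (δ μ : ℕ → ℝ) (r : ℕ) : Prop :=
  ∀ ε : ℝ, 0 < ε → ∃ β' : ℝ, 0 < β' ∧ ∀ᶠ m in atTop, ∀ k : ℕ,
    ‖R4.cf (h m) k - R4.cf (e m) k‖ ≤
      μ m * (δ m) ^ (((min k r : ℕ) : ℝ) - ε) * Real.exp (-(β' * k))

/-- [D1d1] from `stF_r` (as in `finite_det`) -/
def BASE : Prop := ∀ η β M : ℝ, 0 < η → 0 < β → 1 ≤ M → ∃ N0 : ℕ, ∀ h e δ μ,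
  GS η β M N0 h e δ μ → Gr h e δ μ 2

/-- [D1d2] bootstrap, from `REL` and `HOLM` with `p = 1`, `n + 1 = k ≤ C log (1/δ)` -/
def STEP : Prop := ∀ η β M : ℝ, 0 < η → 0 < β → 1 ≤ M → ∀ N0 h e δ μ,
  GS η β M N0 h e δ μ → ∀ r, 2 ≤ r → Gr h e δ μ r → Gr h e δ μ (r + 1)

/-- [D1d3] no losses for a fixed mode -/
def FIX : Prop := ∀ η β M : ℝ, 0 < η → 0 < β → 1 ≤ M → ∀ N0 h e δ μ,
  GS η β M N0 h e δ μ → (∀ r, Gr h e δ μ r) → ∀ k : ℕ, 2 ≤ k → ∃ C : ℝ, ∀ᶠ m in atTop,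
    ‖R4.cf (h m) k - R4.cf (e m) k‖ ≤ C * μ m * δ m ^ k

/-- low modes of `h - e` -/
noncomputable def Pl (h e : ℝ → ℝ) (r : ℕ) (z : ℂ) : ℂ :=
  ∑ j ∈ Finset.Ioo (-(r : ℤ)) r, (R4.cf h j - R4.cf e j) * Complex.exp (Complex.I * j * z)

/-- [D1d4] the low modes of the maxima vanish in the limit; `u m` is the real table
`e m + Pl (h m) (e m) r` -/
def RLIM : Prop := ∀ η β M : ℝ, 0 < η → 0 < β → 1 ≤ M → ∀ N0 h e δ μ,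
  GS η β M N0 h e δ μ → (∀ r, Gr h e δ μ r) → ∀ n p r : ℕ, 1 ≤ p → 2 * p ≤ n + 1 → aa n p < η →
    ∀ k : ℕ, 1 ≤ k → k < r → Tendsto (fun m => R4.cf (fun x => PV.mxP (fun y => e m y +
      (Pl (h m) (e m) r y).re) n p x - PV.mxP (e m) n p x) k / ((μ m : ℂ) * (δ m : ℂ) ^ k))
      atTop (𝓝 0)

/-- one-sided table, truncated, seen from the regular midpoints; `z = δ e^{iθ}` -/
noncomputable def locz (c : ℕ → ℂ) (r n p : ℕ) (z : ℂ) (j : ℕ) (w : ℂ) : ℂ :=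
  ∑ i ∈ Finset.range r, c i * (z * Complex.exp (Complex.I * (aa n p * (2 * j + 1) + w))) ^ i

/-- [D1e1] limit at the disc (`e = 1`, `μ = 1`): the critical value of the one-sided table is
constant to order `r` -/
def LIMO : Prop := ∀ η β M : ℝ, 0 < η → 0 < β → 1 ≤ M → ∀ N0 h δ,
  GS η β M N0 h (fun _ _ => 1) δ (fun _ => 1) → (∀ r, Gr h (fun _ _ => 1) δ (fun _ => 1) r) →
  ∀ c : ℕ → ℂ, (∀ k : ℕ, Tendsto (fun m => R4.cf (h m) k / (δ m : ℂ) ^ k) atTop (𝓝 (c k))) →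
  ∀ n p r : ℕ, 1 ≤ p → 2 * p ≤ n + 1 → aa n p < η →
    ∃ (ρ : ℝ) (w : ℂ → ℕ → ℂ), 0 < ρ ∧
      (∀ z ∈ Metric.ball (0 : ℂ) ρ, IsCr (locz c r n p z) n p (w z) ∧ Sml n (w z)) ∧
      (∀ j ≤ n + 1, DifferentiableOn ℂ (fun z => w z j) (Metric.ball 0 ρ) ∧ w 0 j = 0) ∧
      ∀ k, 1 ≤ k → k < r → iteratedDeriv k (fun z => cv (locz c r n p z) n p (w z)) 0 = 0

/-- [D1e2] conversion into formal closed orbits -/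
def TOORB : Prop := ∀ (c : ℕ → ℂ) (n p : ℕ), c 0 = 1 → c 1 = 0 → 1 ≤ p → 2 * p < n + 1 →
  (∀ r : ℕ, ∃ (ρ : ℝ) (w : ℂ → ℕ → ℂ), 0 < ρ ∧
      (∀ z ∈ Metric.ball (0 : ℂ) ρ, IsCr (locz c r n p z) n p (w z) ∧ Sml n (w z)) ∧
      (∀ j ≤ n + 1, DifferentiableOn ℂ (fun z => w z j) (Metric.ball 0 ρ) ∧ w 0 j = 0) ∧
      ∀ k, 1 ≤ k → k < r → iteratedDeriv k (fun z => cv (locz c r n p z) n p (w z)) 0 = 0) →
  ∀ r, Orb c (Complex.exp (Complex.I * (Real.pi * p / (n + 1 : ℕ)))) (n + 1) r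

/-- [D1f1] relative limit: the first variation of the one-sided conic `H² = 1 + b z²` in the
direction `g` is constant to order `r` along its critical chains -/
def LIMR : Prop := ∀ η β M : ℝ, 0 < η → 0 < β → 1 ≤ M → ∀ N0 h e δ μ,
  GS η β M N0 h e δ μ → (∀ r, Gr h e δ μ r) → Tendsto μ atTop (𝓝 0) →
  ∀ (c g : ℕ → ℂ) (H : ℂ → ℂ) (R : ℝ), 0 < R → DifferentiableOn ℂ H (Metric.ball 0 R) →
  (∀ z ∈ Metric.ball (0 : ℂ) R, HasSum (fun k => c k * z ^ k) (H z)) →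
  (∀ k : ℕ, Tendsto (fun m => R4.cf (e m) k / (δ m : ℂ) ^ k) atTop (𝓝 (c k))) →
  (∀ k : ℕ, Tendsto (fun m => (R4.cf (h m) k - R4.cf (e m) k) / ((μ m : ℂ) * (δ m : ℂ) ^ k))
    atTop (𝓝 (g k))) →
  ∀ n p r : ℕ, 1 ≤ p → 2 * p ≤ n + 1 → aa n p < η → ∃ ρ0 : ℝ, 0 < ρ0 ∧
    ∀ (ρ : ℝ) (w : ℂ → ℕ → ℂ), 0 < ρ → ρ ≤ ρ0 →
    (∀ z ∈ Metric.ball (0 : ℂ) ρ, IsCr (fun j v => H (z * Complex.exp (Complex.I *
      (aa n p * (2 * j + 1) + v)))) n p (w z) ∧ Sml n (w z)) →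
    (∀ j ≤ n + 1, DifferentiableOn ℂ (fun z => w z j) (Metric.ball 0 ρ) ∧ w 0 j = 0) →
    ∀ k, 1 ≤ k → k < r → iteratedDeriv k (fun z => ∑ j ∈ Finset.range (n + 1),
      2 * locz g r n p z j (mm (w z) j) * Complex.sin (aa n p + dd (w z) j)) 0 = 0

/-- the binomial relations of `D4` -/
def RelG (b : ℂ) (G : ℕ → ℂ) (m p : ℕ) : Prop :=
  ∑ j ∈ (Finset.range m).filter (fun j => 2 * j < m),
    G (m - 2 * j) * ((-1) ^ j * ((m - j - 1).choose j : ℂ)) *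
      (b / (4 * (Real.cos (Real.pi * p / m) : ℂ) ^ 2)) ^ j = 0

/-- `G = g H` as a series in `u = z / H` -/
def IsG (c g G : ℕ → ℂ) : Prop := ∀ i, PowerSeries.coeff i (PowerSeries.mk g * PowerSeries.mk c) =
  ∑ j ∈ Finset.range (i + 1), G j *
    PowerSeries.coeff i ((PowerSeries.X * (PowerSeries.mk c)⁻¹) ^ j)

/-- [D1f2] explicit orbits of the one-sided conic: with `κ = b / (4 cos² a)`, `a = aa n p`,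
`w_j = v e^{2 i a j}` (lines) and `v_j = v e^{i a (2 j + 1)}` (bounces), `N_j = w_j/(1 - κ w_j²)`,
`z_j² = v_j²/((1 - κ w_j²)(1 - κ w_{j+1}²))`, `u_j = z_j / H(z_j) = v_j/(1 + κ v_j²)`,
`sin(half gap_j) = sin a * H(z_j)` -/
def CONIC : Prop := ∀ (c g : ℕ → ℂ) (b : ℂ), c 0 = 1 → c 1 = 0 →
  (PowerSeries.mk c) ^ 2 = 1 + PowerSeries.C b * PowerSeries.X ^ 2 →
  ∃ (R : ℝ) (H : ℂ → ℂ), 0 < R ∧ DifferentiableOn ℂ H (Metric.ball 0 R) ∧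
    (∀ z ∈ Metric.ball (0 : ℂ) R, HasSum (fun k => c k * z ^ k) (H z)) ∧
    ∀ n p : ℕ, 1 ≤ p → 2 * p < n + 1 → ∀ ρ0 : ℝ, 0 < ρ0 → ∃ (ρ : ℝ) (w : ℂ → ℕ → ℂ), 0 < ρ ∧ ρ ≤ ρ0 ∧
      (∀ z ∈ Metric.ball (0 : ℂ) ρ, IsCr (fun j v => H (z * Complex.exp (Complex.I *
        (aa n p * (2 * j + 1) + v)))) n p (w z) ∧ Sml n (w z)) ∧
      (∀ j ≤ n + 1, DifferentiableOn ℂ (fun z => w z j) (Metric.ball 0 ρ) ∧ w 0 j = 0) ∧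
      ∀ r : ℕ, n + 1 < r → (∀ k, 1 ≤ k → k < r → iteratedDeriv k (fun z => ∑ j ∈ Finset.range (n + 1),
        2 * locz g r n p z j (mm (w z) j) * Complex.sin (aa n p + dd (w z) j)) 0 = 0) →
        ∀ G : ℕ → ℂ, IsG c g G → RelG b G (n + 1) p

/-- [D1] OUTPUT at the disc -/
def D1O : Prop := ∀ η β M : ℝ, 0 < η → 0 < β → 1 ≤ M → ∃ N0 : ℕ, ∀ (h : ℕ → ℝ → ℝ) (δ : ℕ → ℝ),
  GS η β M N0 h (fun _ _ => 1) δ (fun _ => 1) →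
  (∀ k : ℕ, 2 ≤ k → ∃ C : ℝ, ∀ᶠ m in atTop, ‖R4.cf (h m) k‖ ≤ C * δ m ^ k) ∧
  ∀ c : ℕ → ℂ, (∀ k : ℕ, Tendsto (fun m => R4.cf (h m) k / (δ m : ℂ) ^ k) atTop (𝓝 (c k))) →
  ∀ n p : ℕ, 1 ≤ p → 2 * p < n + 1 → aa n p < η → ∀ r,
    Orb c (Complex.exp (Complex.I * (Real.pi * p / (n + 1 : ℕ)))) (n + 1) r

/-- [D1] OUTPUT, relative version -/
def D1R : Prop := ∀ η β M : ℝ, 0 < η → 0 < β → 1 ≤ M → ∃ N0 : ℕ, ∀ (h e : ℕ → ℝ → ℝ)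
  (δ μ : ℕ → ℝ), GS η β M N0 h e δ μ → Tendsto μ atTop (𝓝 0) →
  (∀ k : ℕ, 2 ≤ k → ∃ C : ℝ, ∀ᶠ m in atTop,
    ‖R4.cf (h m) k - R4.cf (e m) k‖ ≤ C * μ m * δ m ^ k) ∧
  ∀ (c g : ℕ → ℂ) (b : ℂ), c 0 = 1 → c 1 = 0 →
  (PowerSeries.mk c) ^ 2 = 1 + PowerSeries.C b * PowerSeries.X ^ 2 →
  (∀ k : ℕ, Tendsto (fun m => R4.cf (e m) k / (δ m : ℂ) ^ k) atTop (𝓝 (c k))) →
  (∀ k : ℕ, Tendsto (fun m => (R4.cf (h m) k - R4.cf (e m) k) / ((μ m : ℂ) * (δ m : ℂ) ^ k))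
    atTop (𝓝 (g k))) →
  ∀ n p : ℕ, 1 ≤ p → 2 * p < n + 1 → aa n p < η → ∀ G : ℕ → ℂ, IsG c g G → RelG b G (n + 1) p

end Vale.Agent.P097.Disc
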