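import Vale.Agent.P097.Disc.D1Defs

/-! # P097 / Disc : the ellipse with given low modes (interface for the final assembly, helper407) -/

set_option linter.all false

namespace Vale.Agent.P097.Disc

open Vale.Agent.P097 Vale.Agent.P097.FD Vale.Agent.P097.TOP Vale.Agent.P097.H407
open Vale.Agent.P097.Reg Filter
open scoped Topology

/-- [F3] the ellipses `E a` with Fourier modes `1, 0, a`, near the disc. Recipe: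
`E = |1 + q e^{2ix}| / A₀`, `|1 + q z²| = G(z) * conj G(z)`, `G = ∑ β_i (q z²)^i`, `β_i` the
coefficients of `(1 + Y)^{1/2}` (`|β_i| ≤ 1`), so `cf (2k) = q^k A_k / A₀`,
`A_k = ∑_j β_{k+j} β_j |q|^{2j}`, odd modes `0`; `q` from `cf 2 = q A₁/A₀ = a` by the intermediate
value theorem in `|q|`; uniform strip and collar from `H407.stELLC` on a compact ball of `EP`. -/
def ELLN : Prop := ∃ (η₁ β₁ M₁ κ₁ C₀ : ℝ) (E : ℂ → ℝ → ℝ), 0 < η₁ ∧ 0 < β₁ ∧ 1 ≤ M₁ ∧ 0 < κ₁ ∧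
  0 < C₀ ∧
  (∀ a : ℂ, ‖a‖ ≤ κ₁ → (∃ w ∈ EP, E a = EF w) ∧ StripTab β₁ M₁ (E a) ∧ Rsn (E a) η₁ ∧
    R4.cf (E a) 0 = 1 ∧ R4.cf (E a) 1 = 0 ∧ R4.cf (E a) 2 = a ∧
    ∀ k : ℕ, 2 ≤ k → ‖R4.cf (E a) k‖ ≤ (C₀ * Real.sqrt ‖a‖) ^ k) ∧
  ∀ (a : ℕ → ℂ) (δ : ℕ → ℝ) (c : ℕ → ℂ) (b : ℂ), (∀ m, 0 < δ m) → Tendsto δ atTop (𝓝 0) →
    Tendsto (fun m => a m / (δ m : ℂ) ^ 2) atTop (𝓝 (c 2)) → c 0 = 1 →
    (PowerSeries.mk c) ^ 2 = 1 + PowerSeries.C b * PowerSeries.X ^ 2 →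
    ∀ k : ℕ, Tendsto (fun m => R4.cf (E (a m)) k / (δ m : ℂ) ^ k) atTop (𝓝 (c k))

end Vale.Agent.P097.Disc
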